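import Vale.Agent.P370.H195.Half1
import Vale.Agent.P370.H305.Iface

/-!
Final assembly of line Q (problem P370): QMA-hardness for every exponent `c ≥ 1` from the two
statements of the second half.
-/

namespace Vale.Agent.P370.Q

open Vale.Agent.Lib.PolyTime Vale.Agent.P333 Vale.Agent.P370.H305

theorem Valid.mono {c : ℕ} (hc : 1 ≤ c) {I : Instance} (h : I.Valid 1) : I.Valid c := by
  obtain ⟨h1, h2, h3, h4, h5⟩ := h
  refine ⟨h1, h2, h3, h4, le_trans ?_ h5⟩
  rcases Nat.eq_zero_or_pos I.length with h0 | h0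
  · rw [h0, Nat.cast_zero, zero_pow (by omega), zero_pow (by omega)]
  · have hL : (1 : ℝ) ≤ (I.length : ℝ) := by exact_mod_cast h0
    apply one_div_le_one_div_of_le (by positivity)
    exact pow_le_pow_right₀ hL hc

theorem yes_mono {c : ℕ} (hc : 1 ≤ c) : P370.Yes 1 ⊆ P370.Yes c := fun _ h =>
  ⟨Valid.mono hc h.1, h.2⟩

theorem no_mono {c : ℕ} (hc : 1 ≤ c) : P370.No 1 ⊆ P370.No c := fun _ h =>
  ⟨Valid.mono hc h.1, h.2⟩

/-- The map of the second half, with exponent `1`. -/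
theorem toCont_one {coreE fE : ℕ → ℝ} {phiC phiJ : ℕ → ℝ → ℝ}
    (h1 : ContCoreStmt coreE fE phiC phiJ) (h2 : ProgStmt coreE fE phiC phiJ) :
    ∃ g : Heis.Code → Instance,
      (∃ G : Word → Word, FP ∅ G ∧ ∀ x : Heis.Code, G (enc x) = instW (g x)) ∧
      (∀ x ∈ Heis.Yes, g x ∈ P370.Yes 1) ∧ (∀ x ∈ Heis.No, g x ∈ P370.No 1) := by
  obtain ⟨k₀, h2⟩ := h2
  obtain ⟨K, hk, hK, h1⟩ := h1 k₀
  obtain ⟨g, hG, hg⟩ := h2 K hk
  refine ⟨g, hG, ?_, ?_⟩
  all_goals
    rintro ⟨D, E, k⟩ hx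
    have hgood : Heis.Good (D, E, k) := hx.1
    obtain ⟨d, o, ho, hne, hnd, hch, hsame, hN, ha, hb⟩ := hg D E k hgood
    have hB2 : (2 : ℝ) ≤ (base E : ℝ) := by
      unfold base; push_cast; linarith [Nat.cast_nonneg (α := ℝ) E.length]
    have hB0 : (0 : ℝ) < (base E : ℝ) := by linarith
    have hB1 : (1 : ℝ) ≤ (base E : ℝ) := by linarith
    set Bs : ℝ := (base E : ℝ) ^ K.ks with hBs
    set BZ : ℝ := (base E : ℝ) ^ K.kZ with hBZ
    have hBs0 : 0 < Bs := pow_pos hB0 _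
    have hBZ0 : 0 < BZ := pow_pos hB0 _
    have hratio : 2 * Bs ≤ BZ := by
      calc 2 * Bs ≤ (base E : ℝ) * Bs := mul_le_mul_of_nonneg_right hB2 hBs0.le
        _ = (base E : ℝ) ^ (K.ks + 1) := by rw [hBs]; ring
        _ ≤ BZ := pow_le_pow_right₀ hB1 hK
    have hNpos : 1 ≤ (g (D, E, k)).N := by
      rw [hN]; unfold nel
      have : 1 ≤ D := hgood.1
      omega
    have hvalid : (g (D, E, k)).Valid 1 := by
      refine ⟨hne, hnd, hch, hNpos, ?_⟩
      rw [ha, hb]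
      have e1 : enB K D E o (k + 3 / 4) - enB K D E o (k + 1 / 4) = BZ / (2 * Bs) := by
        unfold enB
        rw [← hBs, ← hBZ]
        field_simp
        ring
      rw [e1, pow_one]
      have h3 : (1 : ℝ) ≤ BZ / (2 * Bs) := by
        rw [le_div_iff₀ (by positivity)]; linarith
      refine le_trans ?_ h3
      rcases Nat.eq_zero_or_pos (g (D, E, k)).length with h0 | h0
      · rw [h0]; norm_num
      · have : (1 : ℝ) ≤ ((g (D, E, k)).length : ℝ) := by exact_mod_cast h0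
        rw [div_le_one (by linarith)]; exact this
    have hE : (g (D, E, k)).E₀ = groundEnergy (nel (base E ^ K.kn) D)
        (fun j : Fin (g (D, E, k)).nuclei.length => ((g (D, E, k)).nuclei.get j).2)
        (fun j => point ((g (D, E, k)).nuclei.get j).1) := by
      unfold Instance.E₀; rw [hN]
    obtain ⟨hup, hlo⟩ := h1 D E k hgood d _ _ hsame
    rw [abs_le] at ho
    have hos : (1 : ℝ) / (16 * Bs) = (1 / 16) / Bs := by field_simp
    rw [hos] at ho
    have mono : ∀ o1 o2 l1 l2 : ℝ, o1 + l1 / Bs ≤ o2 + l2 / Bs →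
        enB K D E o1 l1 ≤ enB K D E o2 l2 := by
      intro o1 o2 l1 l2 h
      unfold enB
      rw [← hBs, ← hBZ]
      have : o1 + (l1 - 2 * (E.length : ℝ)) / Bs ≤ o2 + (l2 - 2 * (E.length : ℝ)) / Bs := by
        rw [sub_div, sub_div]; linarith
      have := mul_le_mul_of_nonneg_left this hBZ0.le
      linarith
  · refine ⟨hvalid, ?_⟩
    obtain ⟨χ, hχ0, hχ⟩ := hx.2
    have h3 := hup (k : ℝ) ⟨χ, hχ0, hχ⟩
    rw [hE, ha]
    refine h3.trans (mono _ _ _ _ ?_)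
    have e2 : ((k : ℝ) + 1 / 4) / Bs = ((k : ℝ) + 1 / 8) / Bs + (1 / 16) / Bs + (1 / 16) / Bs := by
      field_simp; ring
    have e3 : 0 ≤ (1 / 16 : ℝ) / Bs := by positivity
    rw [e2]
    linarith [ho.1]
  · refine ⟨hvalid, ?_⟩
    have h3 := hlo ((k : ℝ) + 1) hx.2
    rw [hE, hb]
    refine le_trans (mono _ _ _ _ ?_) h3
    have e2 : ((k : ℝ) + 1 - 1 / 8) / Bs = ((k : ℝ) + 3 / 4) / Bs + (1 / 16) / Bs + (1 / 16) / Bs := by
      field_simp; ring
    have e3 : 0 ≤ (1 / 16 : ℝ) / Bs := by positivity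
    rw [e2]
    linarith [ho.2]

/-- QMA-hardness for every exponent `c ≥ 1`, from the analytic core and the program of the second
half. -/
theorem qmaHard_of {coreE fE : ℕ → ℝ} {phiC phiJ : ℕ → ℝ → ℝ}
    (h1 : ContCoreStmt coreE fE phiC phiJ) (h2 : ProgStmt coreE fE phiC phiJ) (c : ℕ)
    (hc : 1 ≤ c) : QMAHard (P370.Yes c) (P370.No c) := by
  intro A hA
  obtain ⟨g, ⟨G, hG, hG'⟩, hy, hn⟩ := toCont_one h1 h2
  obtain ⟨f, ⟨F, hF, hF'⟩, hfy, hfn⟩ := H195.reducesTo hA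
  refine ⟨fun x => g (f x), ?_, fun x hx => yes_mono hc (hy _ (hfy x hx)),
    fun x hx => no_mono hc (hn _ (hfn x hx))⟩
  refine tm2_of_polyTimeFun _ _ _ (fun x => G (F x)) (polyTimeFun_iff.2 (hG.comp hF)) fun x => ?_
  have : F x = enc (f x) := hF' ⟨x⟩
  rw [this]
  exact hG' _

end Vale.Agent.P370.Q
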